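import Vale.Agent.P159.RSW.ArmAll
import Vale.Agent.P159.RSW.Fin
import Vale.Agent.P159.RSW.L4
import Vale.Agent.P159.RSW.Step0
import Vale.Agent.P159.TM.H121.Out

/-!
# P159, T1, row A6: RSW with easy crossings only in the window `[n/40, n]` of scales

885's downward induction on the size of the gap: at the top scale the constant of the arms is
restored by the near-square of the top scale, and an arm of a gap of size `2s` gives an easy
crossing at scale `s`.
-/

namespace Vale.Agent.P159.TM.H454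

open Vale.Agent.P145.FB Vale.Agent.P159.RSW Vale.Agent.P159.RSW.H935 Vale.Agent.P159.TM.H121

/-- Step 0 at a single scale. -/
theorem step_one (P : PP) {p1 c1 : ℝ} (hc1 : 0 < c1) (hc : c1 ≤ P.L 1 0) {t : ℤ} (ht : 1 ≤ t)
    (h1 : p1 ≤ P.L t (4 * t)) : min (p1 / 4000) (c1 ^ 400) ≤ P.L t (t + t / 50) := by
  rcases lt_or_ge t 100 with hlt | hge
  · refine (min_le_right _ _).trans ?_
    obtain ⟨n, hn⟩ := Int.eq_ofNat_of_zero_le (show 0 ≤ t - 1 by omega)
    have hle1 : c1 ≤ 1 := hc.trans (P.le_one _)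
    have e : t = (n : ℤ) + 1 := by omega
    have h1 := L_seg P hc1.le hc n
    have h2 : c1 ^ 400 ≤ c1 ^ (n + 1) := pow_le_pow_of_le_one hc1.le hle1 (by omega)
    have h3 : P.L ((n : ℤ) + 1) 0 ≤ P.L t (t + t / 50) := by
      rw [e]
      exact P.L_mono geo (by omega) le_rfl (by omega)
    linarith
  · refine (min_le_left _ _).trans ?_
    obtain ⟨k, hk⟩ : ∃ k, k = t / 100 := ⟨_, rfl⟩
    have hk1 : 1 ≤ k := by omega
    have hn : 4 * t < ((800 : ℕ) + 1) * k := by push_cast; omega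
    set b := P.L t (t + t / 50) with hb
    have h2 := P.mono (LRc 0 t 0 (4 * t)) (fun S => ∃ i : ℕ, i ≤ 800 ∧
      (LRc 0 t (i * k) (i * k + (t + 2 * k)) S ∨ BTc 0 t ((i + 1) * k) ((i + 1) * k + t) S))
      (fun S hS => dich hk1 (by omega) hn hS)
    have h3 := ex_le P (fun i S => LRc 0 t (i * k) (i * k + (t + 2 * k)) S ∨
      BTc 0 t ((i + 1) * k) ((i + 1) * k + t) S) (a := 2 * b) 800 (by
        intro i _
        refine (P.or_le _ _).trans ?_
        have a1 : P.p (LRc 0 t (i * k) (i * k + (t + 2 * k))) ≤ b := by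
          rw [P.L_eq']
          exact P.L_mono geo (by omega) (by omega) (by omega)
        have a2 : P.p (BTc 0 t ((i + 1) * k) ((i + 1) * k + t)) ≤ b := by
          rw [P.B_eq']
          exact P.L_mono geo (by omega) (by omega) (by omega)
        have a3 : P.p (fun S => LRc 0 t (i * k) (i * k + (t + 2 * k)) S) =
          P.p (LRc 0 t (i * k) (i * k + (t + 2 * k))) := rfl
        have a4 : P.p (fun S => BTc 0 t ((i + 1) * k) ((i + 1) * k + t) S) =
          P.p (BTc 0 t ((i + 1) * k) ((i + 1) * k + t)) := rfl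
        rw [a3, a4]
        linarith)
    have h4 : P.p (LRc 0 t 0 (4 * t)) = P.L t (4 * t) := rfl
    rw [h4] at h2
    have hb0 : 0 ≤ b := P.L_nonneg _ _
    have h5 := h2.trans h3
    push_cast at h5
    linarith

/-- (L2) with separate constants for the near-square and for the arm. -/
theorem l2c (P : PP) (c0 c : ℝ) (B r : ℤ) (h0 : 0 < c0) (hcpos : 0 < c) (hc1 : c ≤ 1)
    (hr : 1 ≤ r) (hB : 2000 * r ≤ B) (hL : c0 ≤ P.L (B - B / 50) B) (harm0 : ARM P c (B / 13) r)
    (heps : 5000 * Eps P (B / 13) ≤ c0 * c ^ 4) : ARM P (c0 / 5000) B r := by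
  by_contra hcon
  have hconW : ¬ ARMW P (c0 / 5000) B r := fun h => hcon (sym P _ B r (by omega) h)
  obtain ⟨x, y, hx, hxr, hy, hyr, hp⟩ := harm0
  obtain ⟨s, hs⟩ : ∃ s : ℤ, s = B / 13 := ⟨_, rfl⟩
  obtain ⟨k, hk⟩ : ∃ k : ℤ, k = s / 25 := ⟨_, rfl⟩
  obtain ⟨W, hW⟩ : ∃ W : ℤ, W = B - B / 50 := ⟨_, rfl⟩
  obtain ⟨X, hX⟩ : ∃ X : ℤ, X = W - s := ⟨_, rfl⟩
  rw [← hs] at hxr hyr hp heps
  rw [← hW] at hL
  have hc4 : 0 < c ^ 4 := by positivity
  have hc4' : c ^ 4 ≤ 1 := pow_le_one₀ hcpos.le hc1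
  have hE : Eps P s ≤ c0 / 5000 := by
    have : c0 * c ^ 4 ≤ c0 * 1 := mul_le_mul_of_nonneg_left hc4' h0.le
    linarith
  -- the four families
  have A1 : P.p (fun S => ∃ i : ℕ, i ≤ 399 ∧ BTc X (X + s) (i * k) (i * k + (s + s / 5)) S) ≤
      ((399 : ℕ) + 1) * (c0 / 5000) := by
    refine union_le P (fun i => BTc X (X + s) (i * k) (i * k + (s + s / 5))) ?_ 399
    intro i
    have e : P.p (BTc X (X + s) (i * k) (i * k + (s + s / 5))) = Eps P s := by
      rw [P.B_eq', Eps]; congr 1 <;> ring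
    rw [e]; exact hE
  have A2 : P.p (fun S => ∃ i : ℕ, i ≤ 399 ∧
      Av (G2 s r x y X (i * k)) X (X + s) (i * k) (i * k + Ht s) S) ≤
      ((399 : ℕ) + 1) * (4 * (c0 / 5000)) := by
    refine union_le P (fun i => Av (G2 s r x y X (i * k)) X (X + s) (i * k) (i * k + Ht s)) ?_ 399
    intro i
    have h2 := l1 P c s r x y X (i * k) hcpos.le (by omega) (by omega) hx hxr hy hyr hp
    have h3 : P.p (Av (G2 s r x y X (i * k)) X (X + s) (i * k) (i * k + Ht s)) * c ^ 4 ≤
        4 * (c0 / 5000) * c ^ 4 := by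
      refine h2.trans ?_
      linarith
    exact le_of_mul_le_mul_right h3 hc4
  have hW' : ∀ d : ℤ, P.p (WArm 0 B 0 B (X + x) (cl B r d) r) ≤ c0 / 5000 := by
    intro d
    by_contra h
    push Not at h
    refine hconW ⟨X + x, cl B r d, ?_, ?_, ?_, ?_, h.le⟩
    · unfold cl; omega
    · unfold cl; omega
    · omega
    · omega
  have A3 : P.p (fun S => ∃ i : ℕ, i ≤ 399 ∧
      WArm 0 B 0 B (X + x) (cl B r (i * k + s - y - r - s / 2)) r S) ≤
      ((399 : ℕ) + 1) * (c0 / 5000) :=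
    union_le P (fun i => WArm 0 B 0 B (X + x) (cl B r (i * k + s - y - r - s / 2)) r)
      (fun i => hW' _) 399
  have A4 : P.p (fun S => ∃ i : ℕ, i ≤ 399 ∧
      WArm 0 B 0 B (X + x) (cl B r (i * k + s - y - r)) r S) ≤ ((399 : ℕ) + 1) * (c0 / 5000) :=
    union_le P (fun i => WArm 0 B 0 B (X + x) (cl B r (i * k + s - y - r)) r)
      (fun i => hW' _) 399
  have key : P.p (LRc 0 W 0 B) ≤ _ := P.mono _ _
    (fun S hS => det2 B r s k x y W X hr hB hs hk hW hX S hS)
  have key2 := key.trans ((P.or_le _ _).trans (add_le_add (P.or_le _ _) (P.or_le _ _)))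
  have hL' : c0 ≤ P.p (LRc 0 W 0 B) := hL
  have fin := hL'.trans key2
  push_cast at A1 A2 A3 A4
  linarith

/-- An arm of a gap of size `2t` gives an easy crossing at scale `t`. -/
theorem easy_of_arm (P : PP) {c : ℝ} {B t : ℤ} (ht : 1 ≤ t) (h : ARM P c B (2 * t)) :
    c / 4 ≤ P.L t (4 * t) := by
  obtain ⟨x, y, hx, hxr, hy, hyr, hp⟩ := h
  refine easy_of_out P ht ?_
  rw [← p_NArm_shift P 0 B 0 B x y (2 * t) (-(x + t)) (-(y + t))] at hp
  refine hp.trans (P.mono _ _ ?_)
  rintro S ⟨u, v, huv, hu, hv⟩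
  refine ⟨u, v, huv.mono Set.inter_subset_left, ?_, ?_⟩
  · have hu' : u ∈ rc (x + -(x + t)) (x + -(x + t) + 2 * t) (y + -(y + t))
      (y + -(y + t) + 2 * t) := hu
    rw [mem_rc] at hu' ⊢
    omega
  · unfold nrm
    omega

/-- Arms at the top scale `B₀`, with the constant of the near-square of scale `B₀`. -/
theorem chain (P : PP) {q0 q' : ℝ} {g B₀ : ℤ} (hq0 : 0 < q0) (hq' : 0 < q') (hqq : q' ≤ q0)
    (hg : 1 ≤ g) (hgB : 20 * g ≤ B₀) (hq : ∀ s, g < s → s ≤ B₀ → q' ≤ P.L s (s + s / 50))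
    (he : ∀ s, g < s → s ≤ B₀ → 5000 * Eps P s ≤ q' * (q' / 5000) ^ 4)
    (htop : q0 ≤ P.L (B₀ - B₀ / 50) B₀) : ARM P (q0 / 5000) B₀ g := by
  have hW : ∀ B, 20 * g ≤ B → B ≤ B₀ → q' ≤ P.L (B - B / 50) B := by
    intro B h1 h2
    have h4 := hq (B - B / 50) (by omega) (by omega)
    exact h4.trans (P.L_mono geo (by omega) le_rfl (by omega))
  have hq1 : q' ≤ 1 := (hW B₀ hgB le_rfl).trans (P.le_one _)
  have key : ∀ n : ℕ, ∀ B : ℤ, B ≤ n → 20 * g ≤ B → B ≤ B₀ → ARM P (q' / 5000) B g := by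
    intro n
    induction n with
    | zero =>
      intro B h1 h2' _
      exfalso
      push_cast at h1
      omega
    | succ n ih =>
      intro B hBn hB hBN
      rcases lt_or_ge B (2000 * g) with h5 | h5
      · exact l3Stmt2 P q' B g hq' hg hB h5 (hW B hB hBN)
      · exact l2c P q' (q' / 5000) B g hq' (by positivity) (by linarith) hg h5 (hW B hB hBN)
          (ih (B / 13) (by push_cast at hBn; omega) (by omega) (by omega))
          (he (B / 13) (by omega) (by omega))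
  rcases lt_or_ge B₀ (2000 * g) with h5 | h5
  · exact l3Stmt2 P q0 B₀ g hq0 hg hgB h5 htop
  · refine l2c P q0 (q' / 5000) B₀ g hq0 (by positivity) (by linarith) hg h5 htop
      (key (B₀ / 13).toNat (B₀ / 13) (by omega) (by omega) (by omega)) ?_
    refine (he (B₀ / 13) (by omega) (by omega)).trans ?_
    exact mul_le_mul_of_nonneg_right hqq (by positivity)

/-- Near-squares at all scales above `r`, if long crossings are rare there. -/
theorem down (P : PP) {q0 c1 : ℝ} {r n : ℤ} (hq0 : 0 < q0) (hc1 : 0 < c1) (hc : c1 ≤ P.L 1 0)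
    (hqc : q0 ≤ c1 ^ 400) (hr : 1 ≤ r)
    (hwin : ∀ s, 1 ≤ s → n ≤ 40 * s → s ≤ n → q0 ≤ P.L s (s + s / 50))
    (he : ∀ s, r < s → s ≤ n →
      5000 * Eps P s ≤ q0 / 80000000 * (q0 / 80000000 / 5000) ^ 4) :
    ∀ s, r < s → s ≤ n → q0 / 80000000 ≤ P.L s (s + s / 50) := by
  have key : ∀ m : ℕ, ∀ s, n - s ≤ m → r < s → s ≤ n →
      q0 / 80000000 ≤ P.L s (s + s / 50) := by
    intro m
    induction m with
    | zero =>
      intro s h1 h2 h3
      have := hwin s (by omega) (by push_cast at h1; omega) h3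
      linarith
    | succ m ih =>
      intro s h1 h2 h3
      rcases le_or_gt n (40 * s) with h4 | h4
      · have := hwin s (by omega) h4 h3
        linarith
      · have htop : q0 ≤ P.L (n - n / 50) n :=
          (hwin (n - n / 50) (by omega) (by omega) (by omega)).trans
            (P.L_mono geo (by omega) le_rfl (by omega))
        have hA : ARM P (q0 / 5000) n (2 * s) := by
          refine chain P (q' := q0 / 80000000) hq0 (by positivity) (by linarith) (by omega)
            (by omega) ?_ ?_ htop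
          · intro s' h5 h6
            exact ih s' (by push_cast at h1; omega) (by omega) h6
          · intro s' h5 h6
            exact he s' (by omega) h6
        have hE := easy_of_arm P (by omega) hA
        have hS := step_one P hc1 hc (by omega) hE
        refine le_trans ?_ hS
        refine le_min ?_ ?_
        · linarith
        · linarith
  intro s h1 h2
  exact key (n - s).toNat s (by omega) h1 h2

/-- The threshold of the long crossings. -/
noncomputable def eT (q0 : ℝ) : ℝ := q0 / 80000000 * (q0 / 80000000 / 5000) ^ 4 / 5000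

/-- The circuit constant at the last good scale. -/
noncomputable def kT (q0 c1 : ℝ) : ℝ := min (c1 ^ 80) (eT q0 * (eT q0 * eT q0) ^ 19)

/-- The constant of the long crossings. -/
noncomputable def kU (q0 c1 : ℝ) : ℝ := (q0 / 5000) ^ 2 * kT q0 c1 ^ 4

/-- The final constant (long crossings of ratio 4). -/
noncomputable def kV (q0 c1 : ℝ) : ℝ :=
  min 1 (min (kT q0 c1 * (kT q0 c1 * kT q0 c1) ^ 10000) (kU q0 c1 * (q0 * kU q0 c1) ^ 19))

theorem eT_pos {q0 : ℝ} (h : 0 < q0) : 0 < eT q0 := by unfold eT; positivity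

theorem kT_pos {q0 c1 : ℝ} (h : 0 < q0) (h1 : 0 < c1) : 0 < kT q0 c1 := by
  have := eT_pos h
  unfold kT; positivity

theorem kU_pos {q0 c1 : ℝ} (h : 0 < q0) (h1 : 0 < c1) : 0 < kU q0 c1 := by
  have := kT_pos h h1
  unfold kU; positivity

theorem kV_pos {q0 c1 : ℝ} (h : 0 < q0) (h1 : 0 < c1) : 0 < kV q0 c1 := by
  have := kT_pos h h1
  have := kU_pos h h1
  unfold kV; positivity

/-- **RSW with easy crossings only at the scales `n/40 ≤ s ≤ n`**, core. -/
theorem core (P : PP) {q0 c1 : ℝ} {n : ℤ} (hq0 : 0 < q0) (hc1 : 0 < c1) (hc : c1 ≤ P.L 1 0)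
    (hqc : q0 ≤ c1 ^ 400) (hn : 20 ≤ n)
    (hwin : ∀ s, 1 ≤ s → n ≤ 40 * s → s ≤ n → q0 ≤ P.L s (s + s / 50)) :
    kV q0 c1 ≤ P.L (4 * n) n := by
  have hk := kT_pos hq0 hc1
  have hu := kU_pos hq0 hc1
  have he0 := eT_pos hq0
  obtain ⟨r, hr, hrn, hlast, hall⟩ := exists_last (fun t => eT q0 < Eps P t) n hn
  -- the long crossing at scale `r`
  have hL : kT q0 c1 ≤ P.L (4 * r) r := by
    rcases hlast with h | h
    · subst h
      refine (min_le_left _ _).trans ?_
      have h1 := L_seg P hc1.le hc 79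
      norm_num at h1 ⊢
      exact h1.trans (P.L_mono geo (by omega) le_rfl (by omega))
    · refine (min_le_right _ _).trans ?_
      refine l5core P (eT q0) (eT q0) r he0.le he0.le hr ?_ h.le
      exact h.le.trans (P.L_mono geo (by omega) (by omega) (by omega))
  have hsq : kT q0 c1 ≤ P.L r (r + r / 50) :=
    hL.trans (P.L_mono geo (by omega) (by omega) (by omega))
  rcases lt_or_ge n (5000 * r) with hlt | hge
  · exact (min_le_right _ _).trans ((min_le_left _ _).trans
      (L_near P hk hk hr hrn hlt hsq hL))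
  · have he : ∀ s, r < s → s ≤ n →
        5000 * Eps P s ≤ q0 / 80000000 * (q0 / 80000000 / 5000) ^ 4 := by
      intro s h1 h2
      have h3 : Eps P s ≤ eT q0 := not_lt.1 (hall s h1 h2)
      unfold eT at h3
      linarith
    have hd := down P hq0 hc1 hc hqc (by omega) hwin he
    obtain ⟨B₀, hB⟩ : ∃ B₀ : ℤ, B₀ = n - 4 * r := ⟨_, rfl⟩
    have htop : q0 ≤ P.L (B₀ - B₀ / 50) B₀ :=
      (hwin (B₀ - B₀ / 50) (by omega) (by omega) (by omega)).trans
        (P.L_mono geo (by omega) le_rfl (by omega))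
    have hA : ARM P (q0 / 5000) B₀ r :=
      chain P (q' := q0 / 80000000) hq0 (by positivity) (by linarith) (by omega) (by omega)
        (fun s h1 h2 => hd s h1 (by omega)) (fun s h1 h2 => he s h1 (by omega)) htop
    have hC : kT q0 c1 ^ 4 ≤ P.p (Ann 0 0 r) := P.Ann_ge 0 0 hk.le hL
    have h6 := l4 P (q0 / 5000) (kT q0 c1 ^ 4) B₀ r r (by positivity) (by positivity)
      (by omega) le_rfl (by omega) (by omega) hA hC
    have h7 : kU q0 c1 ≤ Eps P n := h6.trans (P.L_mono geo (by omega) (by omega) (by omega))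
    exact (min_le_right _ _).trans ((min_le_right _ _).trans
      (l5core P q0 (kU q0 c1) n hq0.le hu.le hn (hwin n (by omega) (by omega) le_rfl) h7))

/-- **RSW from a window of scales**: one edge and easy crossings `P.L s (4 * s)` for
`n / 40 ≤ s ≤ n` give long crossings and circuits at scale `n`. -/
theorem rsw_top (p1 c1 : ℝ) (hp1 : 0 < p1) (hc1 : 0 < c1) : ∃ c : ℝ, 0 < c ∧
    ∀ (P : PP) (n : ℤ), 20 ≤ n → c1 ≤ P.L 1 0 →
      (∀ s, n ≤ 40 * s → s ≤ n → p1 ≤ P.L s (4 * s)) →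
      c ≤ P.L (4 * n) n ∧ ∀ p q : ℤ, c ≤ P.p (Ann p q n) := by
  have hq : 0 < min (p1 / 4000) (c1 ^ 400) := by positivity
  have hv := kV_pos hq hc1
  have hv1 : kV (min (p1 / 4000) (c1 ^ 400)) c1 ≤ 1 := min_le_left _ _
  refine ⟨kV (min (p1 / 4000) (c1 ^ 400)) c1 ^ 4, by positivity, fun P n hn hc hwin => ?_⟩
  have key := core P hq hc1 hc (min_le_right _ _) hn
    (fun s h1 h2 h3 => step_one P hc1 hc h1 (hwin s h2 h3))
  refine ⟨le_trans ?_ key, fun p q => P.Ann_ge p q hv.le key⟩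
  calc kV (min (p1 / 4000) (c1 ^ 400)) c1 ^ 4 ≤ kV (min (p1 / 4000) (c1 ^ 400)) c1 ^ 1 :=
        pow_le_pow_of_le_one hv.le hv1 (by norm_num)
    _ = kV (min (p1 / 4000) (c1 ^ 400)) c1 := pow_one _

end Vale.Agent.P159.TM.H454
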